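import Vale.Agent.P237.Quant.TailData.N94.tailN94P1Part0
import Vale.Agent.P237.Quant.TailData.N94.tailN94P1Part1
import Vale.Agent.P237.Quant.TailData.N94.tailN94P1Part2
import Vale.Agent.P237.Quant.TailData.N94.tailN94P1Part3
import Vale.Agent.P237.Quant.TailData.N94.tailN94P1Part4
import Vale.Agent.P237.Quant.TailData.N94.tailN94P1Part5

/-!
Tail calibration tailN94P1 in dimension 94. The check. Generated data, checked by the kernel.
-/

set_option maxRecDepth 100000
set_option linter.all false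

namespace Vale.Agent.P237.Quant.TailData

open TailCert


/-- The calibration. -/
noncomputable def tailN94P1 : Cfg :=
  tailN94P1Base.withIvals (List.flatten [tailN94P1L0, tailN94P1L1, tailN94P1L2, tailN94P1L3, tailN94P1L4, tailN94P1L5, tailN94P1L6, tailN94P1L7, tailN94P1L8, tailN94P1L9, tailN94P1L10, tailN94P1L11, tailN94P1L12, tailN94P1L13, tailN94P1L14, tailN94P1L15, tailN94P1L16, tailN94P1L17, tailN94P1L18, tailN94P1L19, tailN94P1L20, tailN94P1L21, tailN94P1L22])

theorem tailN94P1_parts : [tailN94P1L0, tailN94P1L1, tailN94P1L2, tailN94P1L3, tailN94P1L4, tailN94P1L5, tailN94P1L6, tailN94P1L7, tailN94P1L8, tailN94P1L9, tailN94P1L10, tailN94P1L11, tailN94P1L12, tailN94P1L13, tailN94P1L14, tailN94P1L15, tailN94P1L16, tailN94P1L17, tailN94P1L18, tailN94P1L19, tailN94P1L20, tailN94P1L21, tailN94P1L22].Forall fun l => tailN94P1Base.partUsed tailN94P1Used l = true := by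
  simp only [List.forall_cons, List.Forall]
  exact ⟨tailN94P1L0_ok, tailN94P1L1_ok, tailN94P1L2_ok, tailN94P1L3_ok, tailN94P1L4_ok, tailN94P1L5_ok, tailN94P1L6_ok, tailN94P1L7_ok, tailN94P1L8_ok, tailN94P1L9_ok, tailN94P1L10_ok, tailN94P1L11_ok, tailN94P1L12_ok, tailN94P1L13_ok, tailN94P1L14_ok, tailN94P1L15_ok, tailN94P1L16_ok, tailN94P1L17_ok, tailN94P1L18_ok, tailN94P1L19_ok, tailN94P1L20_ok, tailN94P1L21_ok, tailN94P1L22_ok⟩

theorem tailN94P1_check : tailN94P1.check = true :=
  Cfg.check_of_parts (by decide +kernel) tailN94P1_parts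

end Vale.Agent.P237.Quant.TailData
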